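import Vale.Agent.P352.BW.Spec2
import Vale.Agent.P352.BW.Lm
import Vale.Agent.P352Z.P352.BW.Spec

open Vale.Agent.P352G

/-!
# P352 BW, S0: local nets without regularity
-/

set_option linter.all false

noncomputable section

open MeasureTheory Filter Topology
open scoped ComplexConjugate InnerProductSpace BoundedContinuousFunction

namespace Vale.Agent.P352.BW.S0

open Vale.Agent.P132 (ModData expB jconj)
open UniformSpace (Completion)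
open GF H246 H496 H755 H15

variable {D : Type*} [NormedAddCommGroup D] [InnerProductSpace ℂ D] [GrD D]

/-- `BW.VNet` without `reg` -/
structure VNetZ (Q : Theory D) (A : (V → V) → D → D)
    (𝒜 : Set V → VonNeumannAlgebra (Completion D)) : Prop extends RepZ Q A where
  fld : ∀ O B f, Q.fld B → In O f → Aff (𝒜 O) (B f)
  mono : ∀ O O', O ⊆ O' → ∀ X ∈ 𝒜 O, X ∈ 𝒜 O'
  cov : ∀ s L y O, ∀ X ∈ 𝒜 O, 0 < s → IsLor L →
    ∃ Y ∈ 𝒜 (sim s L y '' O), ∀ z, Y (Ue Q s L y z) = Ue Q s L y (X z)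
  gam : ∀ O, ∀ X ∈ 𝒜 O, Gm D * X * Gm D ∈ 𝒜 O
  dual : ∀ a b X, IsNull a → IsNull b → GF.mdot a b = 1 →
    (tw X ∈ 𝒜 (Wdg b a 0) ↔ X ∈ (𝒜 (Wdg a b 0)).commutant)
  cyc : ∀ O, IsOpen O → O.Nonempty → Dense {z | ∃ X ∈ 𝒜 O, X (om Q) = z}
  inn : ∀ a b Y, IsNull a → IsNull b → GF.mdot a b = 1 →
    (∀ K, IsCompact K → K ⊆ Wdg a b 0 → Y ∈ (𝒜 K).commutant) → Y ∈ (𝒜 (Wdg a b 0)).commutant
  bw : ∀ a b t L (E : ModData (𝒜 (Wdg a b 0)) (om Q)) z, IsNull a → IsNull b →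
    GF.mdot a b = 1 → IsLor L →
    (∀ x, sim 1 L 0 x = x + ((Real.exp (-(2 * Real.pi * t)) - 1) * GF.mdot b x) • a +
      ((Real.exp (2 * Real.pi * t) - 1) * GF.mdot a x) • b) → E.U t z = Ue Q 1 L 0 z

/-- `BW.LNet` without `reg` -/
structure LNetZ (Q : Theory D) (A : (V → V) → D → D)
    (𝒜 : Set V → VonNeumannAlgebra (Completion D)) : Prop extends RepZ Q A where
  fld : ∀ O B f, Q.fld B → In O f → Aff (𝒜 O) (B f)
  mono : ∀ O O', O ⊆ O' → ∀ X ∈ 𝒜 O, X ∈ 𝒜 O'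
  cov : ∀ s L y O, ∀ X ∈ 𝒜 O, 0 < s → IsLor L →
    ∃ Y ∈ 𝒜 (sim s L y '' O), ∀ z, Y (Ue Q s L y z) = Ue Q s L y (X z)
  gam : ∀ O, ∀ X ∈ 𝒜 O, Gm D * X * Gm D ∈ 𝒜 O
  loc : ∀ a b, IsNull a → IsNull b → GF.mdot a b = 1 → ∀ X ∈ 𝒜 (Wdg b a 0),
    tw X ∈ (𝒜 (Wdg a b 0)).commutant
  bw : ∀ a b t L (E : ModData (𝒜 (Wdg a b 0)) (om Q)) z, IsNull a → IsNull b →
    GF.mdot a b = 1 → IsLor L →
    (∀ x, sim 1 L 0 x = x + ((Real.exp (-(2 * Real.pi * t)) - 1) * GF.mdot b x) • a +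
      ((Real.exp (2 * Real.pi * t) - 1) * GF.mdot a x) • b) → E.U t z = Ue Q 1 L 0 z

def W1StmtZ (Q : Theory D) (A : (V → V) → D → D)
    (𝒜 : Set V → VonNeumannAlgebra (Completion D)) : Prop :=
  LNetZ Q A 𝒜 → ∀ O, IsOpen O → O.Nonempty → Dense {z | ∃ X ∈ 𝒜 O, X (om Q) = z}

def W2StmtZ (Q : Theory D) (A : (V → V) → D → D)
    (𝒜 : Set V → VonNeumannAlgebra (Completion D)) : Prop :=
  LNetZ Q A 𝒜 → ∀ a b Y, IsNull a → IsNull b → GF.mdot a b = 1 →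
    (∀ K, IsCompact K → K ⊆ Wdg a b 0 → Y ∈ (𝒜 K).commutant) → Y ∈ (𝒜 (Wdg a b 0)).commutant

def W3StmtZ (Q : Theory D) (A : (V → V) → D → D)
    (𝒜 : Set V → VonNeumannAlgebra (Completion D)) : Prop :=
  LNetZ Q A 𝒜 → ∀ a b X, IsNull a → IsNull b → GF.mdot a b = 1 →
    (tw X ∈ 𝒜 (Wdg b a 0) ↔ X ∈ (𝒜 (Wdg a b 0)).commutant)

def G1StmtZ (Q : Theory D) (A : (V → V) → D → D)
    (𝒜 : Set V → VonNeumannAlgebra (Completion D)) : Prop :=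
  VNetZ Q A 𝒜 → ∃ S : V → V → ℝ → Completion D →L[ℂ] Completion D,
    ∀ a b, IsNull a → IsNull b → GF.mdot a b = 1 → Nd Q 𝒜 a b (S a b) ∧
      Nonempty (ModData (𝒜 (Wdg a b 0)) (om Q)) ∧
      (∀ c : ℝ, 0 < c → Nonempty (ModData (𝒜 (HM.Rg a b c)) (om Q))) ∧
      ∀ c : ℝ, 0 ≤ c → ∀ X ∈ 𝒜 (Wdg a b 0), ∃ Y ∈ 𝒜 (Wdg a b 0), Y * S a b c = S a b c * X

def G2StmtZ (Q : Theory D) (A : (V → V) → D → D)
    (𝒜 : Set V → VonNeumannAlgebra (Completion D))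
    (S : V → V → ℝ → Completion D →L[ℂ] Completion D) : Prop :=
  VNetZ Q A 𝒜 → (∀ a b, IsNull a → IsNull b → GF.mdot a b = 1 → Nd Q 𝒜 a b (S a b)) →
    ∀ s L r a b a' b' c z, 0 < s → 0 < r → IsLor L → IsNull a → IsNull b → IsNull a' →
      IsNull b' → GF.mdot a b = 1 → GF.mdot a' b' = 1 → sim 1 L 0 a = r • a' →
      r • sim 1 L 0 b = b' → Ue Q s L 0 (S a b c z) = S a' b' (r / s * c) (Ue Q s L 0 z)

def G3BlockZ (Q : Theory D) (A : (V → V) → D → D)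
    (𝒜 : Set V → VonNeumannAlgebra (Completion D))
    (S : V → V → ℝ → Completion D →L[ℂ] Completion D) : Prop :=
  VNetZ Q A 𝒜 → (∀ a b, IsNull a → IsNull b → GF.mdot a b = 1 → Nd Q 𝒜 a b (S a b) ∧
      Nonempty (ModData (𝒜 (Wdg a b 0)) (om Q)) ∧
      ∀ c : ℝ, 0 < c → Nonempty (ModData (𝒜 (HM.Rg a b c)) (om Q))) → G3Stmt Q S

theorem vnet_ofZ {Q : Theory D} {A : (V → V) → D → D}
    {𝒜 : Set V → VonNeumannAlgebra (Completion D)} (N : LNetZ Q A 𝒜) (h1 : W1StmtZ Q A 𝒜)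
    (h2 : W2StmtZ Q A 𝒜) (h3 : W3StmtZ Q A 𝒜) : VNetZ Q A 𝒜 :=
  { N.toRepZ with
    fld := N.fld
    mono := N.mono
    cov := N.cov
    gam := N.gam
    dual := fun a b X ha hb hab => h3 N a b X ha hb hab
    cyc := h1 N
    inn := fun a b Y ha hb hab => h2 N a b Y ha hb hab
    bw := N.bw }

end Vale.Agent.P352.BW.S0

end
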