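import Vale.Agent.P352.BW.S0.G2
import Vale.Agent.P352Z.P352.BW.S0.Defs

open Vale.Agent.P352G

/-!
# P352 BW: block G2
-/

set_option linter.all false

noncomputable section

open MeasureTheory Filter Topology
open scoped ComplexConjugate InnerProductSpace BoundedContinuousFunction

namespace Vale.Agent.P352.BW.S0

open GF H246 H496 H755 H15
open Vale.Agent.P132 (ModData)
open UniformSpace (Completion)

variable {D : Type*} [NormedAddCommGroup D] [InnerProductSpace ℂ D] [GrD D] {Q : Theory D}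
  {A : (V → V) → D → D} {𝒜 : Set V → VonNeumannAlgebra (Completion D)}

/-! ### Inverse similitudes -/

lemma Ue_rightZ (hU : UStmtZ Q A) {s : ℝ} {L : Ix → V} (hs : 0 < s) (hL : IsLor L) (y : V) :
    ∃ e : Bool, (∀ z, Ue Q s L y (Ue Q s⁻¹ (linv L) (yinv s L y) z) = cond e (Gm D) 1 z) ∧
      ∀ z, Ue Q s⁻¹ (linv L) (yinv s L y) (Ue Q s L y z) = cond e (Gm D) 1 z := by
  obtain ⟨e, he⟩ := hU.mulG s L y s⁻¹ (linv L) (yinv s L y) hs (inv_pos.2 hs) hL (isLor_linv hL)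
  have h1 : ∀ z, Ue Q s L y (Ue Q s⁻¹ (linv L) (yinv s L y) z) = cond e (Gm D) 1 z := fun z => by
    rw [he, linv_id hL, mul_inv_cancel₀ hs.ne', sim_right hs hL, Ue_one]
  refine ⟨e, h1, fun z => ?_⟩
  obtain ⟨W, hW⟩ := hU.lin s L y hs hL
  apply W.injective
  rw [hW, hW, h1]
  cases e
  · rfl
  · exact (hU.gam s L y z hs hL).symm

/-- **naturality of the modular groups under the similitudes** -/
theorem nat_imgZ (hE : EStmt (Completion D)) (hU : UStmtZ Q A) (h : VNetZ Q A 𝒜) {s : ℝ} {L : Ix → V}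
    {y : V} (hs : 0 < s) (hL : IsLor L) {O O' : Set V} (hO : sim s L y '' O = O')
    (E : ModData (𝒜 O) (om Q)) (E' : ModData (𝒜 O') (om Q)) (t : ℝ) (z : Completion D) :
    Ue Q s L y (E.U t z) = E'.U t (Ue Q s L y z) := by
  obtain ⟨W, hW⟩ := hU.lin s L y hs hL
  have hξ : W (om Q) = om Q := by rw [hW, hU.vac s L y hs hL]
  have h1 : ∀ X ∈ 𝒜 O, ∃ Y ∈ 𝒜 O', ∀ z, Y (W z) = W (X z) := by
    intro X hX
    obtain ⟨Y, hY, hYe⟩ := h.cov s L y O X hX hs hL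
    rw [hO] at hY
    exact ⟨Y, hY, fun z => by rw [hW, hW, hYe]⟩
  have h2 : ∀ Y ∈ 𝒜 O', ∃ X ∈ 𝒜 O, ∀ z, Y (W z) = W (X z) := by
    intro Y hY
    obtain ⟨X, hX, hXe⟩ := h.cov s⁻¹ (linv L) (yinv s L y) O' Y hY (inv_pos.2 hs) (isLor_linv hL)
    rw [← hO, img_left hs hL] at hX
    obtain ⟨e, r1, r2⟩ := Ue_rightZ hU hs hL y
    cases e
    · refine ⟨X, hX, fun z => ?_⟩
      have h3 := hXe (Ue Q s L y z)
      rw [r2] at h3
      rw [hW, hW]
      exact ((congrArg _ h3).trans (r1 _)).symm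
    · refine ⟨Gm D * X * Gm D, h.gam O X hX, fun z => ?_⟩
      have h3 := hXe (Ue Q s L y z)
      rw [r2] at h3
      have h4 : Ue Q s L y (X (Gm D z)) = Gm D (Y (Ue Q s L y z)) := (congrArg _ h3).trans (r1 _)
      rw [hW, hW]
      show _ = Ue Q s L y (Gm D (X (Gm D z)))
      rw [hU.gam s L y _ hs hL, h4, hU.g2]
  have h3 := hE (𝒜 O) (𝒜 O') (om Q) E E' W hξ h1 h2 t z
  rwa [hW, hW] at h3

/-- block G2 -/
theorem g2Z (hE : EStmt (Completion D)) (hU : UStmtZ Q A)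
    (hN : ∀ a b, IsNull a → IsNull b → GF.mdot a b = 1 →
      Nonempty (ModData (𝒜 (Wdg a b 0)) (om Q)) ∧
      ∀ c : ℝ, 0 < c → Nonempty (ModData (𝒜 (HM.Rg a b c)) (om Q)))
    (S : V → V → ℝ → Completion D →L[ℂ] Completion D) : G2StmtZ Q A 𝒜 S := by
  intro h hNd s L r a b a' b' c0 z hs hr hL ha hb ha' hb' hab hab' hLa hLb
  obtain ⟨⟨E⟩, hR⟩ := hN a b ha hb hab
  obtain ⟨⟨E1⟩, hR1⟩ := hN a' b' ha' hb' hab'
  have hc : 0 < |c0| + 1 := by positivity
  set c : ℝ := |c0| + 1 with hcdef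
  have hc1 : 0 < r / s * c := mul_pos (div_pos hr hs) hc
  obtain ⟨F⟩ := hR c hc
  obtain ⟨F1⟩ := hR1 (r / s * c) hc1
  have hlt : 0 < 1 - c0 / c := by
    have h1 : c0 < c := lt_of_le_of_lt (le_abs_self c0) (by rw [hcdef]; linarith)
    have h2 : c0 / c < 1 := (div_lt_one hc).2 h1
    linarith
  set t : ℝ := -(Real.log (1 - c0 / c)) / (2 * Real.pi) with htdef
  have hpi : (2 * Real.pi) ≠ 0 := by positivity
  have hexp : Real.exp (-(2 * Real.pi * t)) = 1 - c0 / c := by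
    have : -(2 * Real.pi * t) = Real.log (1 - c0 / c) := by
      rw [htdef]
      field_simp
    rw [this, Real.exp_log hlt]
  have e0 : c * (1 - Real.exp (-(2 * Real.pi * t))) = c0 := by
    rw [hexp]
    field_simp
    ring
  have e1 : r / s * c * (1 - Real.exp (-(2 * Real.pi * t))) = r / s * c0 := by
    rw [mul_assoc, e0]
  have i1 : sim s L 0 '' HM.Rg a b c = HM.Rg a' b' (r / s * c) := by
    rw [HM.Rg_img hs hr hL hLa, hLb]
  have i0 : sim s L 0 '' Wdg a b 0 = Wdg a' b' 0 := by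
    rw [← HM.Rg_zero, HM.Rg_img hs hr hL hLa, hLb, mul_zero, HM.Rg_zero]
  rw [S_mod (hNd a b ha hb hab) hc e0 E F, S_mod (hNd a' b' ha' hb' hab') hc1 e1 E1 F1,
    nat_imgZ hE hU h hs hL i1 F F1, nat_imgZ hE hU h hs hL i0 E E1]

end Vale.Agent.P352.BW.S0

end
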