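import Vale.Agent.P352Z.P352.BW.S0.Wd
import Vale.Agent.P352G21.Dug

open Vale.Agent.P352G

/-!
# P352 BW, block W3: wedge duality
-/

set_option linter.all false

noncomputable section

open MeasureTheory Filter Topology
open scoped ComplexConjugate InnerProductSpace BoundedContinuousFunction

namespace Vale.Agent.P352.BW.S0

open Vale.Agent.P132 (ModData expB jconj exists_modData)
open UniformSpace (Completion)
open GF H246 H496 H755 H15

section blocks

variable {D : Type*} [NormedAddCommGroup D] [InnerProductSpace ℂ D] [GrD D] {Q : Theory D}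
  {A : (V → V) → D → D} {𝒜 : Set V → VonNeumannAlgebra (Completion D)}

/-- **Block W3: wedge duality.** -/
theorem w3Z (h1 : W1StmtZ Q A 𝒜) (tk : TKStmt (Completion D)) : W3StmtZ Q A 𝒜 := by
  intro N a b X ha hb hab
  have hba : GF.mdot b a = 1 := by rw [H234.mdc]; exact hab
  obtain ⟨E⟩ := H234.mod_wdgZ N h1 ha hb hab
  have hL := H234.isLor_bo ha hb hab
  refine (P352G21.dual_abs N.g2 N.gs E N.gv (N.gam _) (fun Y hY => ?_) (fun t => ?_)
    (fun t Z hZ => ?_) (h1 N _ (H234.isOpen_wdg b a) (H234.wdg_ne hb ha hba)) X).symm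
  · have a1 := N.loc a b ha hb hab Y hY
    have a2 := N.loc a b ha hb hab _ (N.gam _ Y hY)
    rw [tw_eq] at a1 a2
    rw [N.g0.cj_cj, ← neg_sub Y, neg_mul] at a2
    constructor
    · convert add_mem a1 a2 using 1
      module
    · convert sub_mem a1 a2 using 1
      module
  · ext z
    have hbw := fun z => N.bw a b t _ E z ha hb hab (hL t) (H234.sim_bo t)
    rw [ContinuousLinearMap.mul_apply, ContinuousLinearMap.mul_apply, hbw, hbw,
      N.gUe one_pos (hL t)]
  · exact N.mono _ _ (H234.bo_wdg' ha hb hab t) _ (H234.sg_mem_imgZ N ha hb hab E t hZ)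

end blocks

end Vale.Agent.P352.BW.S0

end
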